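import Vale.Agent.P125.Chain

/-!
A normed space with nontrivial Markov type is superreflexive.
-/

namespace Vale.Agent.Results.P125.MarkovTypeSuperreflexive

open Vale.Agent.P125

universe u

/-- A real normed space with Markov type `p` for some `p > 1` admits an equivalent uniformly
convex norm. -/
theorem result : ∀ (X : Type u) [NormedAddCommGroup X] [NormedSpace ℝ X] (p : ℝ), 1 < p →
    HasMarkovType X p → HasEquivUniformlyConvexNorm X := by
  intro X _ _ p hp hX
  obtain ⟨K, hK, hMT⟩ := hX
  refine renorm fun ε hε => ?_
  by_contra h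
  have hne : ∀ N, (derN ε N : Set X).Nonempty := fun N =>
    Set.nonempty_iff_ne_empty.2 fun he => h ⟨N, he⟩
  obtain ⟨θ, hθ, hsep⟩ := exists_separated hε hne
  obtain ⟨N, hN⟩ := exists_model hp.le hMT hsep
  exact hN.contradiction hp hK.le hθ

end Vale.Agent.Results.P125.MarkovTypeSuperreflexive
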